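import Vale.Agent.P171.Tail

/-!
A stable tempered radial pair potential on three-space with a pressure singularity.
-/

namespace Vale.Agent.Results.P171.PhaseTransition

open Vale.Agent.P171

theorem result :
    ∃ φ : ℝ → ℝ, Measurable φ ∧ LocallyBoundedPos φ ∧ Stable φ ∧ Tempered φ ∧
      IntegrableTail φ ∧ HasPressureTransition φ :=
  exists_pressure_transition_integrableTail

end Vale.Agent.Results.P171.PhaseTransition
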